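import Vale.Agent.P354M53.Defs

open scoped ContDiff Manifold
open Set

namespace Vale.Agent.N354

open Vale.Agent.P354n (R4 mink)
open Vale.Agent.P354M53 (I4 Lor ip df co)

/-- The map iota is injective, smooth and isometric. Nothing is asked about time orientations. -/
def IsEmb (S N : Lor) (ι : S.M → N.M) : Prop :=
  ι.Injective ∧ ContMDiff I4 I4 ∞ ι ∧ ∀ x a b, ip N (ι x) (df ι x a) (df ι x b) = ip S x a b

/-- Near the point p, on an open set D of coordinates of a chart e, g is a Lorentzian metric of
signature (-,+,+,+) whose components have the regularity Reg. The field T of N is not used. -/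
def RegAt (Reg : (R4 → ℝ) → Set R4 → Prop) (N : Lor) (p : N.M) : Prop :=
  ∃ e ∈ atlas R4 N.M, p ∈ e.source ∧ ∃ D, IsOpen D ∧ e p ∈ D ∧ D ⊆ e.target ∧
    (∀ y ∈ D, ∃ L : R4 → R4, IsLinearMap ℝ L ∧ L.Bijective ∧
      ∀ a b, co e y a b = mink (L a) (L b)) ∧
    ∀ a b, Reg (fun y => co e y a b) D

/-- However S is embedded, the metric is of class Reg near no point of the boundary of S. -/
def Singular (Reg : (R4 → ℝ) → Set R4 → Prop) (S : Lor) : Prop :=
  ∀ N ι, IsEmb S N ι → ∀ p ∈ frontier (range ι), ¬ RegAt Reg N p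

/-- S is inextendible in the class Reg: every embedding into a connected Lorentzian manifold of
class Reg is onto. -/
def Inext (Reg : (R4 → ℝ) → Set R4 → Prop) (S : Lor) : Prop :=
  ∀ N ι, IsEmb S N ι → ConnectedSpace N.M → (∀ p, RegAt Reg N p) → ι.Surjective

/-- The function f is locally Lipschitz on D. -/
def Lip (f : R4 → ℝ) (D : Set R4) : Prop := LocallyLipschitzOn D f

end Vale.Agent.N354
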