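import Vale.Agent.N354.Glue
import Vale.Agent.P354M53.Main

/-! P354 (helper87): a piece B of a spacetime glued to M gives a future extension. -/

open scoped ContDiff
open Set Filter Topology MeasureTheory

namespace Vale.Agent.N354

open Vale.Agent.P354n

theorem c0w1_mono {p q : ENNReal} (h : q ≤ p) {f : R4 → ℝ} {D : Set R4} (k : IsC0W1 p f D) :
    IsC0W1 q f D := by
  refine ⟨k.1, fun a => ?_⟩
  obtain ⟨u, h1, h2⟩ := k.2 a
  refine ⟨u, fun Q hQ hc => ?_, h2⟩
  have : IsFiniteMeasure (volume.restrict Q) := isFiniteMeasure_restrict.2 hc.measure_lt_top.ne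
  exact (h1 Q hQ hc).mono_exponent h

theorem c0w1_sub {p : ENNReal} {f : R4 → ℝ} {D D' : Set R4} (h : D' ⊆ D) (k : IsC0W1 p f D) :
    IsC0W1 p f D' := by
  refine ⟨k.1.mono h, fun a => ?_⟩
  obtain ⟨u, h1, h2⟩ := k.2 a
  exact ⟨u, fun Q hQ => h1 Q (hQ.trans h), fun φ a1 a2 a3 => h2 φ a1 a2 (a3.trans h)⟩

theorem c0w1_lip {f : R4 → ℝ} {D : Set R4} (hD : IsOpen D) (k : LocallyLipschitzOn D f) :
    IsC0W1 2 f D := c0w1_mono le_top (P354k.isC0W1_of_locallyLipschitzOn hD k)

theorem c0w1_smooth {f : R4 → ℝ} {D : Set R4} (hD : IsOpen D) (k : IsSmooth f D) :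
    IsC0W1 2 f D := by
  refine c0w1_lip hD fun x hx => ?_
  obtain ⟨K, t, h1, h2⟩ :=
    ((ContDiffOn.contDiffAt k (hD.mem_nhds hx)).of_le (m := 1) (by simp)).exists_lipschitzOnWith
  exact ⟨K, t, mem_nhdsWithin_of_mem_nhds h1, h2⟩

/-- The inverse of an isometric change of coordinates. -/
theorem inv_iso {θ : OpenPartialHomeomorph R4 R4} {y : R4} (hy : y ∈ θ.target)
    (hs : ContDiffAt ℝ ∞ θ (θ.symm y)) (hi : ∀ a, lineDeriv ℝ θ (θ.symm y) a = 0 → a = 0) :
    ContDiffAt ℝ ∞ θ.symm y ∧ ∀ a, lineDeriv ℝ θ (θ.symm y) (lineDeriv ℝ θ.symm y a) = a := by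
  have d := hs.differentiableAt (by simp)
  have hinj : Function.Injective (fderiv ℝ θ (θ.symm y)) :=
    (injective_iff_map_eq_zero _).2 fun a ha => hi a (d.lineDeriv_eq_fderiv.trans ha)
  let L : R4 ≃ₗ[ℝ] R4 := LinearEquiv.ofInjectiveEndo
    ((fderiv ℝ θ (θ.symm y) : R4 →L[ℝ] R4) : R4 →ₗ[ℝ] R4) hinj
  have k : ContDiffAt ℝ ∞ θ.symm y :=
    θ.contDiffAt_symm (f₀' := L.toContinuousLinearEquiv) hy d.hasFDerivAt hs
  refine ⟨k, fun a => ?_⟩
  have d' := k.differentiableAt (by simp)
  have h4 : HasFDerivAt (θ ∘ θ.symm) (ContinuousLinearMap.id ℝ R4) y := by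
    refine (hasFDerivAt_id y).congr_of_eventuallyEq ?_
    filter_upwards [θ.open_target.mem_nhds hy] with z hz
    exact θ.right_inv hz
  rw [d.lineDeriv_eq_fderiv, d'.lineDeriv_eq_fderiv]
  exact DFunLike.congr_fun ((d.hasFDerivAt.comp y d'.hasFDerivAt).unique h4) a

/-- The space Y with the charts of M and the chart χ. -/
noncomputable def sp (M : Spc) {Y : Type} [TopologicalSpace Y] [T2Space Y] {a : M.pt → Y}
    (ha : IsOpenEmbedding a) (χ : OpenPartialHomeomorph Y R4)
    (hc : ∀ q, q ∈ range a ∨ q ∈ χ.source) (G : R4 → R4 → R4 → ℝ) (w : R4) : Spc where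
  pt := Y
  Chart := Option M.Chart
  toE e := e.elim χ fun e => (M.toE e).lift_openEmbedding ha
  cover q := by
    rcases hc q with ⟨x, rfl⟩ | h
    · obtain ⟨e, he⟩ := M.cover x
      exact ⟨some e, x, he, rfl⟩
    · exact ⟨none, h⟩
  g e := e.elim G M.g
  X e := e.elim (fun _ => w) M.X

theorem future_ext {M : Spc} (hM : IsSpacetime IsSmooth M) (φ : OpenPartialHomeomorph M.pt R4)
    {B : Set R4} (hB : IsOpen B) (hφ : φ.target ⊆ B)
    (sep : ∀ x, ∀ z ∈ B, z ∉ φ.target → ∃ W Q, IsOpen W ∧ IsOpen Q ∧ x ∈ W ∧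
      z ∈ Q ∧ ∀ x' ∈ W, x' ∈ φ.source → φ x' ∉ Q) {G : R4 → R4 → R4 → ℝ} {w : R4}
    (sig : ∀ y ∈ B, ∃ L : R4 → R4, IsLinearMap ℝ L ∧ L.Injective ∧
      ∀ a b, G y a b = mink (L a) (L b))
    (tl : ∀ y ∈ B, G y w w < 0) (reg : ∀ a b, IsC0W1 2 (fun y => G y a b) B)
    (iso : ∀ e F, F = (fun y => φ (inv e y)) → ∀ y ∈ tgt e, inv e y ∈ φ.source →
      ContDiffAt ℝ ∞ F y ∧
      (∀ a b, M.g e y a b = G (F y) (lineDeriv ℝ F y a) (lineDeriv ℝ F y b)) ∧
      G (F y) (lineDeriv ℝ F y (M.X e y)) w < 0)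
    {x : R4} (s1 : x + w ∈ B) (s2 : ∀ t ∈ Ico (0 : ℝ) 1, x + t • w ∈ φ.target)
    (s3 : x + w ∉ φ.target) : ∃ N ι c, IsFutureExtension (IsC0W1 2) M N ι c := by
  obtain ⟨Y, _, _, a, χ, ha, rfl, hc, h1, h2⟩ := glue φ hB hφ sep
  have out : ∀ z ∈ χ.target, ∀ p, a p = χ.symm z → p ∈ φ.source ∧ φ p = z := fun z hz p hp =>
    ⟨(h1 p).1 (hp ▸ χ.map_target hz), by rw [← h2, hp, χ.right_inv hz]⟩
  have inn : ∀ z ∈ φ.target, χ.symm z = a (φ.symm z) := fun z hz => by
    conv_lhs => rw [← φ.right_inv hz, ← h2]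
    exact χ.left_inv ((h1 _).2 (φ.map_target hz))
  have ap : ∀ e p, (M.toE e).lift_openEmbedding ha (a p) = M.toE e p := fun e p =>
    OpenPartialHomeomorph.lift_openEmbedding_apply _ _
  have hI : IsIsom (M := M) (N := sp M ha χ hc G w) a := by
    rintro e (_ | e') F rfl y hy hy'
    · exact iso e _ (funext fun y => h2 _) y hy ((h1 _).1 hy')
    · obtain ⟨p, k1, k2⟩ := hy'
      have k := hM.tensor e e' _ rfl y hy (ha.injective k2 ▸ k1)
      have k3 : (fun y => co (M := sp M ha χ hc G w) (some e') (a (inv e y))) =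
        fun y => co e' (id (inv e y)) := funext fun y => ap _ _
      rw [k3]
      exact k
  have hN : IsSpacetime (IsC0W1 2) (sp M ha χ hc G w) :=
    { tensor := by
        rintro (_ | e) e' F rfl y hy hy'
        · replace hy : y ∈ χ.target := hy
          obtain ⟨L, l1, l2, l3⟩ := sig y hy
          rcases e' with _ | e
          · have ev : (fun y => χ (χ.symm y)) =ᶠ[𝓝 y] id :=
              mem_of_superset (χ.open_target.mem_nhds hy) fun z hz => χ.right_inv hz
            have ld : ∀ v, lineDeriv ℝ (fun y => χ (χ.symm y)) y v = v := fun v => by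
              rw [ev.lineDeriv_eq, differentiableAt_id.lineDeriv_eq_fderiv, fderiv_id]
              rfl
            refine ⟨contDiffAt_id.congr_of_eventuallyEq ev, fun u v => ?_, ?_⟩
            · change G y u v = G (χ (χ.symm y)) (lineDeriv ℝ (fun y => χ (χ.symm y)) y u)
                (lineDeriv ℝ (fun y => χ (χ.symm y)) y v)
              rw [ld, ld, χ.right_inv hy]
            · change G (χ (χ.symm y)) (lineDeriv ℝ (fun y => χ (χ.symm y)) y w) w < 0
              rw [ld, χ.right_inv hy]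
              exact tl y hy
          · obtain ⟨p, k1, k2⟩ := hy'
            obtain ⟨k3, rfl⟩ := out y hy p k2
            let θ := (M.toE e).symm.trans φ
            have m : φ p ∈ θ.target := ⟨φ.map_source k3, by
              change φ.symm (φ p) ∈ (M.toE e).source
              rwa [φ.left_inv k3]⟩
            have q : θ.symm (φ p) = M.toE e p := by
              change M.toE e (φ.symm (φ p)) = _
              rw [φ.left_inv k3]
            have m' : M.toE e p ∈ tgt e := (M.toE e).map_source k1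
            have i' : inv e (M.toE e p) = p := (M.toE e).left_inv k1
            obtain ⟨a1, a2, a3⟩ := iso e θ rfl _ m' (by rwa [i'])
            have q' : θ (M.toE e p) = φ p := congrArg φ i'
            rw [q'] at a2 a3
            obtain ⟨b1, b2⟩ := inv_iso m (q ▸ a1) fun v hv => hM.up.nondeg e m' fun b => by
              rw [q] at hv
              change M.g e _ v b = 0
              rw [a2, hv, l3, l1.map_zero]
              simp [mink, cu, cv, c1, c2]
            rw [q] at b2
            have ev : (fun y => (M.toE e).lift_openEmbedding ha (χ.symm y)) =ᶠ[𝓝 (φ p)] θ.symm :=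
              mem_of_superset (φ.open_target.mem_nhds (φ.map_source k3)) fun z hz =>
                (congrArg _ (inn z hz)).trans (ap _ _)
            refine ⟨b1.congr_of_eventuallyEq ev, fun u v => ?_, ?_⟩
            · change G (φ p) u v = M.g e ((M.toE e).lift_openEmbedding ha (χ.symm (φ p)))
                (lineDeriv ℝ (fun y => (M.toE e).lift_openEmbedding ha (χ.symm y)) (φ p) u)
                (lineDeriv ℝ (fun y => (M.toE e).lift_openEmbedding ha (χ.symm y)) (φ p) v)
              rw [ev.lineDeriv_eq, ev.lineDeriv_eq, ev.eq_of_nhds, q, a2, b2, b2]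
            · change M.g e ((M.toE e).lift_openEmbedding ha (χ.symm (φ p)))
                (lineDeriv ℝ (fun y => (M.toE e).lift_openEmbedding ha (χ.symm y)) (φ p) w)
                (M.X e ((M.toE e).lift_openEmbedding ha (χ.symm (φ p)))) < 0
              rw [ev.lineDeriv_eq, ev.eq_of_nhds, q, a2, b2]
              rw [l3] at a3 ⊢
              simp only [mink] at a3 ⊢
              linarith
        · exact hI e e' _ rfl y hy hy'
      signature := by
        rintro (_ | e)
        exacts [sig, hM.signature e]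
      timelike := by
        rintro (_ | e)
        exacts [tl, hM.timelike e]
      continuous := by
        rintro (_ | e)
        exacts [continuousOn_const, hM.continuous e]
      regular := by
        rintro (_ | e)
        exacts [reg, fun u v => c0w1_smooth (M.toE e).open_target (hM.regular e u v)] }
  have seg : ∀ t ∈ Icc (0 : ℝ) 1, x + t • w ∈ χ.target := fun t ht => by
    rcases ht.2.eq_or_lt with k | k
    · rwa [k, one_smul]
    · exact hφ (s2 t ⟨ht.1, k⟩)
  have cc : ContinuousOn (fun t : ℝ => χ.symm (x + t • w)) (Icc 0 1) :=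
    χ.continuousOn_symm.comp (by fun_prop) seg
  have nd : χ.symm (x + (1 : ℝ) • w) ∉ range a := by
    rintro ⟨p, hp⟩
    rw [one_smul] at hp
    obtain ⟨k1, k2⟩ := out _ s1 p hp
    exact s3 (k2 ▸ φ.map_source k1)
  have mem : ∀ t ∈ Ico (0 : ℝ) 1, χ.symm (x + t • w) ∈ range a := fun t ht =>
    ⟨_, (inn _ (s2 t ht)).symm⟩
  refine ⟨sp M ha χ hc G w, a, fun t => χ.symm (x + t • w), hN, ha, hI,
    fun k => nd (k ▸ mem_univ _), IsFutureCurve.of ?_, mem, ?_⟩
  · refine P354p.isFutureCurve_of_charts hN.up cc (uniqueDiffOn_Icc zero_lt_one) fun t ht => ?_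
    have heq : ∀ s ∈ Icc (0 : ℝ) 1, χ (χ.symm (x + s • w)) = x + s • w := fun s hs =>
      χ.right_inv (seg s hs)
    have sm : ContDiff ℝ 1 fun s : ℝ => x + s • w := by fun_prop
    refine ⟨none, χ.map_target (seg t ht), sm.contDiffWithinAt.congr heq (heq t ht), ?_⟩
    intro y u hy hu
    have hu' : u = w := by
      have k : HasDerivAt (fun s : ℝ => x + s • w) w t := by
        simpa using ((hasDerivAt_id t).smul_const w).const_add x
      exact hu.trans ((derivWithin_congr heq (heq t ht)).trans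
        (k.hasDerivWithinAt.derivWithin (uniqueDiffOn_Icc zero_lt_one t ht)))
    have k := tl _ (seg t ht)
    rw [hu', hy.trans (heq t ht), neg_zero]
    exact ⟨k, k.le, k⟩
  · refine ha.isOpen_range.frontier_eq.ge ?_
    refine ⟨mem_closure_of_tendsto (b := 𝓝[<] (1 : ℝ)) (f := fun t => χ.symm (x + t • w)) ?_ ?_,
      nd⟩
    · refine (cc 1 ⟨zero_le_one, le_rfl⟩).mono_left ?_
      rw [← nhdsWithin_Ioo_eq_nhdsLT zero_lt_one]
      exact nhdsWithin_mono _ Ioo_subset_Icc_self
    · filter_upwards [Ioo_mem_nhdsLT zero_lt_one] with s hs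
      exact mem s ⟨hs.1.le, hs.2⟩

end Vale.Agent.N354
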