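import Mathlib

/-! P354 (helper87): gluing an open set B to a space A along a partial homeomorphism. -/

open Set Filter Topology

namespace Vale.Agent.N354

variable {A Z : Type} [TopologicalSpace A] [TopologicalSpace Z]

/-- The glued space. -/
def Gl (φ : OpenPartialHomeomorph A Z) (B : Set Z) : Type := A ⊕ ↥(B \ φ.target)

variable {φ : OpenPartialHomeomorph A Z} {B : Set Z}

/-- The two parts and the projection. -/
def ga (φ : OpenPartialHomeomorph A Z) (B : Set Z) (x : A) : Gl φ B := Sum.inl x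
open Classical in
noncomputable def gb (φ : OpenPartialHomeomorph A Z) (B : Set Z) (z : Z) : Gl φ B :=
  if h : z ∈ B \ φ.target then Sum.inr ⟨z, h⟩ else Sum.inl (φ.symm z)
def gp (q : Gl φ B) : Z := Sum.elim φ Subtype.val q
def gs (φ : OpenPartialHomeomorph A Z) (B : Set Z) : Set (Gl φ B) :=
  {q | ∀ x, q = ga φ B x → x ∈ φ.source}

instance : TopologicalSpace (Gl φ B) where
  IsOpen V := IsOpen (ga φ B ⁻¹' V) ∧ ∃ Q, IsOpen Q ∧ B ∩ gb φ B ⁻¹' V = B ∩ Q
  isOpen_univ := ⟨isOpen_univ, univ, isOpen_univ, rfl⟩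
  isOpen_inter := by
    rintro V V' ⟨h1, Q, h2, h3⟩ ⟨k1, Q', k2, k3⟩
    refine ⟨h1.inter k1, Q ∩ Q', h2.inter k2, ?_⟩
    rw [preimage_inter, inter_inter_distrib_left, h3, k3, ← inter_inter_distrib_left]
  isOpen_sUnion := by
    intro s hs
    choose Q h1 h2 using fun V : s => (hs V V.2).2
    refine ⟨?_, ⋃ V, Q V, isOpen_iUnion h1, ?_⟩
    · rw [preimage_sUnion]
      exact isOpen_biUnion fun V hV => (hs V hV).1
    · rw [sUnion_eq_iUnion, preimage_iUnion, inter_iUnion, inter_iUnion]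
      exact iUnion_congr h2

theorem gl_open (hB : IsOpen B) {V : Set (Gl φ B)} :
    IsOpen V ↔ IsOpen (ga φ B ⁻¹' V) ∧ IsOpen (B ∩ gb φ B ⁻¹' V) :=
  ⟨fun ⟨h1, _, h2, h3⟩ => ⟨h1, h3 ▸ hB.inter h2⟩,
    fun ⟨h1, h2⟩ => ⟨h1, _, h2, by rw [← inter_assoc, inter_self]⟩⟩

theorem ga_inj : (ga φ B).Injective := Sum.inl_injective

theorem gb_in {z : Z} (h : z ∈ φ.target) : gb φ B z = ga φ B (φ.symm z) :=
  dif_neg fun k => k.2 h

theorem gb_out {z : Z} (h : z ∈ B) (h' : z ∉ φ.target) : gb φ B z = Sum.inr ⟨z, h, h'⟩ :=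
  dif_pos ⟨h, h'⟩

theorem ga_mem {x : A} : ga φ B x ∈ gs φ B ↔ x ∈ φ.source :=
  ⟨fun h => h x rfl, fun h _ k => ga_inj k ▸ h⟩

theorem gb_mem {z : Z} (h : z ∈ B) : gb φ B z ∈ gs φ B := by
  by_cases k : z ∈ φ.target
  · rw [gb_in k]
    exact ga_mem.2 (φ.map_target k)
  · rw [gb_out h k]
    exact fun _ j => absurd j Sum.inr_ne_inl

theorem gp_gb {z : Z} (h : z ∈ B) : gp (gb φ B z) = z := by
  by_cases k : z ∈ φ.target
  · rw [gb_in k]
    exact φ.right_inv k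
  · rw [gb_out h k]
    rfl

theorem ga_emb (hB : IsOpen B) (hφ : φ.target ⊆ B) : IsOpenEmbedding (ga φ B) := by
  refine IsOpenEmbedding.of_continuous_injective_isOpenMap ⟨fun V h => h.1⟩ ga_inj fun W hW => ?_
  refine (gl_open hB).2 ⟨by rwa [preimage_image_eq _ ga_inj], ?_⟩
  convert φ.isOpen_inter_preimage_symm hW using 1
  ext z
  constructor
  · rintro ⟨h, x, hx, k⟩
    by_cases j : z ∈ φ.target
    · rw [gb_in j] at k
      exact ⟨j, show φ.symm z ∈ W from ga_inj k ▸ hx⟩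
    · rw [gb_out h j] at k
      exact absurd k Sum.inl_ne_inr
  · rintro ⟨h, k⟩
    exact ⟨hφ h, _, k, (gb_in h).symm⟩

theorem gs_open (hB : IsOpen B) {Q : Set Z} (hQ : IsOpen Q) :
    IsOpen (gs φ B ∩ gp ⁻¹' Q) := by
  refine (gl_open hB).2 ⟨?_, ?_⟩
  · convert φ.isOpen_inter_preimage hQ using 1
    ext x
    exact and_congr_left fun _ => ga_mem
  · convert hB.inter hQ using 1
    ext z
    refine and_congr_right fun h => ?_
    change _ ∧ gp (gb φ B z) ∈ Q ↔ _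
    rw [gp_gb h]
    exact and_iff_right (gb_mem h)

/-- The chart on the second part. -/
noncomputable def gc (hB : IsOpen B) (hφ : φ.target ⊆ B) : OpenPartialHomeomorph (Gl φ B) Z where
  toFun := gp
  invFun := gb φ B
  source := gs φ B
  target := B
  map_source' := by
    rintro (x | z) h
    · exact hφ (φ.map_source (h x rfl))
    · exact z.2.1
  map_target' _ := gb_mem
  left_inv' := by
    rintro (x | z) h
    · exact (gb_in (φ.map_source (h x rfl))).trans (congrArg _ (φ.left_inv (h x rfl)))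
    · exact gb_out z.2.1 z.2.2
  right_inv' _ := gp_gb
  open_source := by simpa using gs_open (φ := φ) hB isOpen_univ
  open_target := hB
  continuousOn_toFun := (continuousOn_open_iff (by
    simpa using gs_open (φ := φ) hB isOpen_univ)).2 fun _ => gs_open hB
  continuousOn_invFun := (continuousOn_open_iff hB).2 fun _ h => ((gl_open hB).1 h).2

theorem glue [T2Space A] [T2Space Z] (φ : OpenPartialHomeomorph A Z) {B : Set Z} (hB : IsOpen B)
    (hφ : φ.target ⊆ B) (sep : ∀ x, ∀ z ∈ B, z ∉ φ.target → ∃ W Q, IsOpen W ∧ IsOpen Q ∧ x ∈ W ∧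
      z ∈ Q ∧ ∀ x' ∈ W, x' ∈ φ.source → φ x' ∉ Q) :
    ∃ (Y : Type) (_ : TopologicalSpace Y) (_ : T2Space Y) (a : A → Y)
      (χ : OpenPartialHomeomorph Y Z), IsOpenEmbedding a ∧ χ.target = B ∧
      (∀ q, q ∈ range a ∨ q ∈ χ.source) ∧ (∀ x, a x ∈ χ.source ↔ x ∈ φ.source) ∧
      ∀ x, χ (a x) = φ x := by
  have e := ga_emb hB hφ
  have mix : ∀ (x : A) (z : ↥(B \ φ.target)), ∃ u v : Set (Gl φ B), IsOpen u ∧ IsOpen v ∧
      ga φ B x ∈ u ∧ Sum.inr z ∈ v ∧ Disjoint u v := fun x z => by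
    obtain ⟨W, Q, h1, h2, h3, h4, h5⟩ := sep x z z.2.1 z.2.2
    refine ⟨_, _, e.isOpenMap W h1, gs_open hB h2, ⟨x, h3, rfl⟩,
      ⟨fun _ j => absurd j Sum.inr_ne_inl, h4⟩, disjoint_left.2 ?_⟩
    rintro _ ⟨x', k1, rfl⟩ ⟨k2, k3⟩
    exact h5 x' k1 (ga_mem.1 k2) k3
  refine ⟨Gl φ B, inferInstance, ⟨?_⟩, ga φ B, gc hB hφ, e, rfl, ?_, fun x => ga_mem,
    fun x => rfl⟩
  · rintro (x | z) (x' | z') h
    · exact separated_by_isOpenEmbedding e fun k => h (congrArg _ k)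
    · exact mix x z'
    · obtain ⟨u, v, h1, h2, h3, h4, h5⟩ := mix x' z
      exact ⟨v, u, h2, h1, h4, h3, h5.symm⟩
    · obtain ⟨u, v, h1, h2, h3, h4, h5⟩ :=
        t2_separation (x := z.1) (y := z'.1) fun k => h (congrArg _ (Subtype.ext k))
      exact ⟨_, _, gs_open hB h1, gs_open hB h2, ⟨fun _ j => absurd j Sum.inr_ne_inl, h3⟩,
        ⟨fun _ j => absurd j Sum.inr_ne_inl, h4⟩,
        disjoint_left.2 fun q k1 k2 => disjoint_left.1 h5 k1.2 k2.2⟩
  · rintro (x | z)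
    · exact Or.inl ⟨x, rfl⟩
    · exact Or.inr fun _ j => absurd j Sum.inr_ne_inl

end Vale.Agent.N354
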