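import Vale.Agent.N354.Rev
import Vale.Agent.N354.Defs

/-! P354 (helper87): the boundary of the maximal development of generic data is singular. -/

open scoped ContDiff Manifold
open Set Filter Topology

namespace Vale.Agent.N354

open Vale.Agent.P354n (R4 IsSmooth IsC0W1 mink rev)
open Vale.Agent.P354I (X Dat Good NoExt)
open Vale.Agent.P354M53

variable {S N : Lor} {ι : S.M → N.M} {Reg : (R4 → ℝ) → Set R4 → Prop}

theorem chart_iso (h : IsEmb S N ι) {e : OpenPartialHomeomorph S.M R4}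
    {e' : OpenPartialHomeomorph N.M R4} (he : e ∈ atlas R4 S.M) (he' : e' ∈ atlas R4 N.M) {y : R4}
    (hy : y ∈ e.target) (hy' : ι (e.symm y) ∈ e'.source) (a b : R4) :
    co e y a b = co e' (e' (ι (e.symm y))) (lineDeriv ℝ (fun y => e' (ι (e.symm y))) y a)
      (lineDeriv ℝ (fun y => e' (ι (e.symm y))) y b) := by
  have k := chart_deriv he he' hy hy' (h.2.1 _)
  rw [co_eq, co_eq, k, k, e'.left_inv hy']
  exact (h.2.2 _ _ _).symm

theorem IsEmb.emb (hS : IsLor Reg S) (h : IsEmb S N ι) : IsOpenEmbedding ι := by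
  refine IsOpenEmbedding.of_continuous_injective_isOpenMap h.2.1.continuous h.1
    (isOpenMap_iff_nhds_le.2 fun x => ?_)
  obtain ⟨e, he, hx⟩ : ∃ e ∈ atlas R4 S.M, x ∈ e.source :=
    ⟨_, chart_mem_atlas R4 x, mem_chart_source R4 x⟩
  obtain ⟨e', he', hx'⟩ : ∃ e ∈ atlas R4 N.M, ι x ∈ e.source :=
    ⟨_, chart_mem_atlas R4 _, mem_chart_source R4 _⟩
  have hy := e.map_source hx
  have hy' : ι (e.symm (e x)) ∈ e'.source := by rwa [e.left_inv hx]
  have s := chart_smooth he he' hy hy' (h.2.1 _)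
  have d := s.differentiableAt (by simp)
  have hinj : Function.Injective (fderiv ℝ (fun y => e' (ι (e.symm y))) (e x)) := by
    refine (injective_iff_map_eq_zero _).2 fun a ha => ?_
    refine hS.spacetime.up.nondeg ⟨e, he⟩ hy fun b => ?_
    change co e (e x) a b = 0
    rw [chart_iso h he he' hy hy', d.lineDeriv_eq_fderiv, ha, co_eq, map_zero]
    exact LinearMap.map_zero₂ (N.g _) _
  let L : R4 ≃ₗ[ℝ] R4 := LinearEquiv.ofInjectiveEndo
    ((fderiv ℝ (fun y => e' (ι (e.symm y))) (e x) : R4 →L[ℝ] R4) : R4 →ₗ[ℝ] R4) hinj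
  have k := HasStrictFDerivAt.map_nhds_eq_of_equiv (f' := L.toContinuousLinearEquiv)
    (s.hasStrictFDerivAt (by simp))
  rw [← e.map_nhds_eq hx, Filter.map_map, e.left_inv hx] at k
  rw [← e'.symm_map_nhds_eq hx', ← k, Filter.map_map]
  refine (Filter.map_congr ?_).le
  filter_upwards [e.open_source.mem_nhds hx,
    h.2.1.continuous.continuousAt.eventually_mem (e'.open_source.mem_nhds hx')] with z h1 h2
  simp only [Function.comp]
  rw [e.left_inv h1, e'.left_inv h2]

theorem singular [Nonempty S.M] (hS : IsLor IsSmooth S) (h1 : NoExt S.spc)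
    (h2 : NoExt (rev S.spc)) : Singular (IsC0W1 2) S := by
  rintro N ι h p hp ⟨e', he', m, D, hD, m', sub, sig, reg⟩
  have emb := h.emb hS
  rw [emb.isOpen_range.frontier_eq] at hp
  let ψ := (emb.toOpenPartialHomeomorph ι).trans e'
  have src : ∀ x, x ∈ ψ.source ↔ ι x ∈ e'.source := fun x => and_iff_right trivial
  have out : ∀ z ∈ e'.target, z ∈ ψ.target ↔ e'.symm z ∈ range ι := fun z hz =>
    (and_iff_right hz).trans (by
      rw [mem_preimage, IsOpenEmbedding.toOpenPartialHomeomorph_target])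
  refine (two_sided (M := S.spc) hS.spacetime ψ hD (G := co e') (y0 := e' p)
    (v := fun x => md e' (ι x) (md ι x (tt S x))) (fun x z hz hz' => ?_)
    (fun y hy => (sig y hy).imp fun L k => ⟨k.1, k.2.1.1, k.2.2⟩) reg ?_ ?_ m' ?_
    (fun k => hp.2 (e'.left_inv m ▸ (out _ (sub m')).1 k))).elim
    (fun ⟨N', κ, c, k⟩ => h1 N' κ c k) fun ⟨N', κ, c, k⟩ => h2 N' κ c k
  · obtain ⟨W, W', a1, a2, a3, a4, a5⟩ := t2_separation (x := ι x) (y := e'.symm z)
      fun k => hz' ((out z (sub hz)).2 ⟨x, k⟩)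
    refine ⟨_, _, a1.preimage emb.continuous, e'.isOpen_inter_preimage_symm a2, a3, ⟨sub hz, a4⟩,
      fun q q1 q2 q3 => disjoint_left.1 a5 q1 ?_⟩
    exact e'.left_inv ((src q).1 q2) ▸ q3.2
  · exact cont_md he' (p := ι) (v := fun x => md ι x (tt S x)) (fun x hx => (src x).1 hx)
      ((h.2.1.continuous_tangentMap (by simp)).comp hS.continuous).continuousOn
  · rintro ⟨e, he⟩ F rfl y hy hy' -
    replace hy : y ∈ e.target := hy
    replace hy' : ι (e.symm y) ∈ e'.source := (src _).1 hy'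
    refine ⟨chart_smooth he he' hy hy' (h.2.1 _), chart_iso h he he' hy hy', ?_⟩
    have k := chart_deriv he he' hy hy' (h.2.1 _) (ct e y)
    have k' := md_md_symm he' (e'.map_source hy')
      (lineDeriv ℝ (fun y => e' (ι (e.symm y))) y (ct e y))
    rw [k, md_ct he hy, e'.left_inv hy'] at k'
    exact k'.symm
  · refine mem_closure_iff_nhds.2 fun Q hQ => ?_
    obtain ⟨q, ⟨q1, q2⟩, q3⟩ := mem_closure_iff_nhds.1 hp.1 _
      (inter_mem (e'.open_source.mem_nhds m) (e'.continuousAt m hQ))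
    exact ⟨e' q, q2, (out _ (e'.map_source q1)).2 (by rwa [e'.left_inv q1])⟩

theorem Singular.lip (h : Singular (IsC0W1 2) S) : Singular Lip S :=
  fun N ι k p hp ⟨e, he, m, D, hD, m', sub, sig, reg⟩ =>
    h N ι k p hp ⟨e, he, m, D, hD, m', sub, sig, fun a b => c0w1_lip hD (reg a b)⟩

theorem Singular.inext [Nonempty S.M] (h : Singular Reg S) : Inext Reg S := fun N ι k _ r => by
  have j : frontier (range ι) = ∅ := eq_empty_of_forall_notMem fun p hp => h N ι k p hp (r p)
  exact range_eq_univ.1 ((isClopen_iff.1 (isClopen_iff_frontier_eq_empty.2 j)).resolve_left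
    (range_nonempty ι).ne_empty)

theorem good {d : Dat} {j : X → S.M} (h1 : Good d) (h2 : Good (ng d)) (h : IsMax d S j) :
    Singular (IsC0W1 2) S ∧ Inext (IsC0W1 2) S ∧ Singular Lip S ∧ Inext Lip S := by
  have := h.1.connected
  have k := singular h.1.spacetime (no_ext h.mghd h1) (no_ext (mghd_rev h.mghd) h2)
  exact ⟨k, k.inext, k.lip, k.lip.inext⟩

end Vale.Agent.N354
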