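import Vale.Agent.P354ZZ.Top
import Vale.Agent.P354YM.QFin
import Vale.Agent.P354CB60.Plug
import Vale.Agent.P354BL.Main
import Vale.Agent.P354M53.Main
import Vale.Agent.N354.Main

open Set
open Vale.Agent.P354n (IsC0W1)
open Vale.Agent.P354I (X)
open Vale.Agent.P354Z (IsWt DD kerr0)
open Vale.Agent.P354BL (Induced)
open Vale.Agent.P354M53 (IsMax Extendible)
open Vale.Agent.N354 (Singular Inext Lip)

/-- (1) Q1. (2) For a comeagre dense set of data near the two-ended Kerr data, the whole boundary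
of the maximal development (future, past, spacelike infinity) is singular in every isometric
embedding: the maximal development has no extension at all, for continuous metrics with locally
square integrable Christoffel symbols and for locally Lipschitz metrics. -/
theorem Vale.Agent.N354.OldSingularBoundary.thm :
    ∀ M a : ℝ, 0 < M → 0 < |a| → |a| < M →
    (∀ ρ : X → ℝ, IsWt M a ρ → ∃ U : Set (DD M a ρ), IsOpen U ∧ (∃ d ∈ U, d.1 = kerr0 M a) ∧
      IsMeagre {d : U | Extendible d.1.1}) ∧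
    Induced M a (kerr0 M a) ∧ (∃ ρ : X → ℝ, IsWt M a ρ) ∧ ∀ ρ : X → ℝ, IsWt M a ρ →
      (∀ d : DD M a ρ, ∃ S j, IsMax d.1 S j) ∧
      ∃ U : Set (DD M a ρ), IsOpen U ∧ (∃ d ∈ U, d.1 = kerr0 M a) ∧
        ∃ G : Set U, IsMeagre Gᶜ ∧ Dense G ∧ ∀ d ∈ G, ∀ S j, IsMax d.1.1 S j →
          Singular (IsC0W1 2) S ∧ Inext (IsC0W1 2) S ∧ Singular Lip S ∧ Inext Lip S :=
  fun M a h1 h2 h3 => by
  have h := Vale.Agent.P354YM.q1_best Vale.Agent.P354ZZ.top M a h1 h2 h3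
  have h' := Vale.Agent.P354YM.q1_best Vale.Agent.P354ZZ.top M (-a) h1 (by rwa [abs_neg])
    (by rwa [abs_neg])
  refine ⟨fun ρ hρ => ?_, Vale.Agent.P354BL.induced h3, h.1, fun ρ hρ => ⟨fun d => ?_, ?_⟩⟩
  · obtain ⟨U, k1, k2, k3, -⟩ := (h.2 ρ hρ).2
    exact ⟨U, k1, k2, k3.mono fun _ k => Vale.Agent.P354M53.Extendible.ext k⟩
  · obtain ⟨S, j, k, -⟩ := Vale.Agent.P354M53.max_unique (Vale.Agent.P354CB60.cbg d)
    exact ⟨S, j, k⟩
  · obtain ⟨_, U, k1, k2, -, k3, -⟩ := h.2 ρ hρ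
    obtain ⟨-, V, l1, l2, -, l3, -⟩ := h'.2 ρ (Vale.Agent.N354.isWt_neg hρ)
    obtain ⟨W, w1, w2, G, w3, w4, w5⟩ := Vale.Agent.N354.generic k1 l1 k2 l2 k3 l3
    exact ⟨W, w1, w2, G, w3, w4, fun d hd S j k =>
      Vale.Agent.N354.good (w5 d hd).1 (w5 d hd).2 k⟩
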