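import Vale.Agent.N354.Two

/-! P354 (helper87): time reversal of data and of developments. -/

open scoped ContDiff Pointwise
open Set Filter Topology

namespace Vale.Agent.N354

open Vale.Agent.P354n
open Vale.Agent.P354 (Bilin)
open Vale.Agent.P354I (X Dat IsDev Good NoExt pd Sg)
open Vale.Agent.P354Z

/-- The data with the opposite time orientation. -/
def ng (d : Dat) : Dat := ⟨d.h, -d.K⟩

theorem ng_ng (d : Dat) : ng (ng d) = d := by simp [ng]

section
variable {M N : Spc} {Reg : (R4 → ℝ) → Set R4 → Prop} {d : Dat} {j : X → N.pt}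

theorem cv_to (h : IsSpacetime Reg M) {c : ℝ → M.pt} (k : IsFutureCurve (rev M) 0 (Ioo 0 1) c) :
    IsFutureCurve M 0 (Ioo 0 1) fun t => c (1 - t) := by
  have hd : ContDiff ℝ 1 fun t : ℝ => 1 - t := by fun_prop
  have m : MapsTo (fun t : ℝ => 1 - t) (Ioo 0 1) (Ioo 0 1) := fun t ht =>
    ⟨sub_pos.2 ht.2, sub_lt_self _ ht.1⟩
  refine ⟨k.1.comp hd.continuous.continuousOn m, fun t ht e he => ?_⟩
  obtain ⟨k1, k2⟩ := k.2 _ (m ht) e he
  obtain ⟨k3, k4⟩ := k2 _ _ rfl rfl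
  refine ⟨ContDiffWithinAt.comp t (g := fun s => co e (c s)) k1 hd.contDiffWithinAt m,
    fun y w hy hw => ?_⟩
  have q : (1 : ℝ) +ᵥ -(Ioo (0 : ℝ) 1) = Ioo 0 1 := by
    ext x
    simp [mem_vadd_set_iff_neg_vadd_mem]
  have b : Bilin (M.g e (co e (c (1 - t)))) := h.up.bilin e ((M.toE e).map_source he)
  rw [derivWithin_comp_const_sub (f := fun s => co e (c s)), q] at hw
  rw [hy, hw, neg_l b, neg_r b, neg_neg, neg_l b, ← neg_r b]
  exact ⟨k3, k4⟩

theorem flip_l : Tendsto (fun t : ℝ => 1 - t) (𝓝[<] 1) (𝓝[>] 0) :=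
  tendsto_nhdsWithin_iff.2 ⟨tendsto_nhdsWithin_of_tendsto_nhds
    (by simpa using (continuous_sub_left (1 : ℝ)).tendsto 1),
    eventually_nhdsWithin_of_forall fun s hs => by simpa using hs⟩

theorem flip_r : Tendsto (fun t : ℝ => 1 - t) (𝓝[>] 0) (𝓝[<] 1) :=
  tendsto_nhdsWithin_iff.2 ⟨tendsto_nhdsWithin_of_tendsto_nhds
    (by simpa using (continuous_sub_left (1 : ℝ)).tendsto 0),
    eventually_nhdsWithin_of_forall fun s hs => by simpa using hs⟩

theorem dev_rev (h : IsDev d N j) : IsDev (ng d) (rev N) j where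
  spacetime := st_rev h.spacetime
  connected := h.connected
  countable := h.countable
  vacuum := h.vacuum
  embedding := h.embedding
  cauchy c k n := by
    obtain ⟨t, ⟨t1, t2⟩, t3⟩ := h.cauchy (fun t => c (1 - t)) (cv_to h.spacetime k)
      fun x => ⟨fun l => (n x).2 (by simpa [Function.comp_def] using l.comp flip_r),
        fun l => (n x).1 (by simpa [Function.comp_def] using l.comp flip_l)⟩
    refine ⟨1 - t, ⟨⟨sub_pos.2 t1.2, sub_lt_self _ t1.1⟩, t2⟩, fun u ⟨u1, u2⟩ => ?_⟩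
    rw [← t3 (1 - u) ⟨⟨sub_pos.2 u1.2, sub_lt_self _ u1.1⟩, by simpa using u2⟩, sub_sub_cancel]
  induced y hy := by
    obtain ⟨e, J, G, n, hJ, a1, a2, a3, a4, a5, a6⟩ := h.induced y hy
    have b : Bilin (N.g e (J y)) := h.spacetime.up.bilin e (hJ ▸ (N.toE e).map_source a1)
    refine ⟨e, J, G, -n, hJ, a1, a2, a3, ?_, ?_, fun i k => ⟨?_, (a6 i k).2.1, ?_⟩⟩
    · change N.g e (J y) (-n) (-n) = -1
      rwa [neg_l b, neg_r b, neg_neg]
    · change N.g e (J y) (-n) (-N.X e (J y)) < 0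
      rwa [neg_l b, neg_r b, neg_neg]
    · change N.g e (J y) _ (-n) = 0
      rw [neg_r b, (a6 i k).1, neg_zero]
    · change -N.g e (J y) (-n) _ = -d.K y i k
      rw [neg_l b, ← (a6 i k).2.2]

theorem mghd_rev (h : IsMGHD d N j) : IsMGHD (ng d) (rev N) j := by
  refine ⟨dev_rev h.1, fun N' j' h' => ?_⟩
  obtain ⟨κ, k1, k2, k3⟩ := h.2 (rev N') j' (ng_ng d ▸ dev_rev h')
  refine ⟨κ, k1, fun e e' F hF y hy hy' => ?_, k3⟩
  obtain ⟨a1, a2, a3⟩ := isom_rev h.1.spacetime k2 e e' F hF y hy hy'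
  refine ⟨a1, a2, ?_⟩
  rwa [show (rev (rev N')).X e y = N'.X e y from neg_neg _] at a3

theorem no_ext (h : IsMGHD d N j) (k : Good d) : NoExt N := by
  obtain ⟨N0, j0, h0, -, H⟩ := k
  obtain ⟨κ, k1, k2, k3⟩ := h.2 N0 j0 h0
  exact H N j κ h.1 k1 k2 k3

end

theorem kerr_neg (M a : ℝ) : kerr0 M (-a) = ng (kerr0 M a) := by
  have h1 : rad M (-a) = rad M a := funext fun y => by simp only [rad, neg_sq]
  have h2 : sD M (-a) = sD M a := funext fun y => by simp only [sD, neg_sq]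
  have h3 : AA M (-a) = AA M a := by funext r y; simp only [AA, neg_sq]
  have h4 : Sg (-a) = Sg a := by funext r y; simp only [Sg, neg_sq]
  have h5 : ∀ y v, dOm M (-a) y v = -dOm M a y v := fun y v => by
    have k : (fun r => 2 * M * -a * r / AA M a r y) = fun r => -(2 * M * a * r / AA M a r y) :=
      funext fun r => by ring
    simp only [dOm, h1, h2, h3, k, deriv.fun_neg]
    ring
  simp only [kerr0, ng, h1, h3, h4, h5, neg_sq, Dat.mk.injEq, true_and]
  funext y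
  ext i j
  simp only [Matrix.of_apply, Pi.neg_apply, Matrix.neg_apply]
  ring

theorem pd_neg (i : Fin 3) (f : X → ℝ) (y : X) : pd i (fun z => -f z) y = -pd i f y := by
  simp only [pd, fderiv_fun_neg, _root_.neg_apply]

theorem covN_neg (k : Dat) (u : X → Matrix (Fin 3) (Fin 3) ℝ) (j : ℕ) :
    covN k (-u) j = fun I y => -covN k u j I y := by
  induction j with
  | zero => rfl
  | succ j ih =>
    funext I y
    change cov k (2 + j) (covN k (-u) j) I y = -cov k (2 + j) (covN k u j) I y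
    simp only [ih, cov, pd_neg, mul_neg, Finset.sum_neg_distrib]
    ring

theorem pn_ng (k : Dat) (ρ : X → ℝ) (m : ℕ) (d d' : Dat) :
    pn (ng k) ρ m (ng d) (ng d') = pn k ρ m d d' := by
  refine Finset.sum_congr rfl fun j _ => congrArg₂ (· + ·) rfl ?_
  change sn k ρ 2 j (-d.K - -d'.K) = _
  rw [← neg_sub', sn, sn]
  simp only [covN_neg, nrm, mul_neg, neg_mul, neg_neg]

variable {M a b : ℝ} {ρ : X → ℝ}

theorem isD_ng (h : kerr0 M b = ng (kerr0 M a)) {d : Dat} (k : IsD M a ρ d) :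
    IsD M b ρ (ng d) := by
  have t : (ng d).trK = fun y => -d.trK y := funext fun y => by
    simp only [Dat.trK, ng, Pi.neg_apply, Matrix.neg_apply, mul_neg, Finset.sum_neg_distrib]
  refine ⟨fun i j => ⟨(k.smooth i j).1, (k.smooth i j).2.neg⟩,
    fun y hy => ⟨(k.pos y hy).1, (k.pos y hy).2.neg⟩, k.complete,
    fun m => by rw [h, pn_ng]; exact k.finite m, fun y hy => ?_, fun y hy j => ?_⟩
  · have s : (ng d).sqK y = d.sqK y := by
      simp only [Dat.sqK, ng, Pi.neg_apply, Matrix.neg_apply, mul_neg, neg_mul, neg_neg]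
    rw [t, s, neg_sq]
    exact k.hamilton y hy
  · have s : (ng d).divK j y = -d.divK j y := by
      have c : (ng d).chr = d.chr := rfl
      simp only [Dat.divK, c]
      simp only [ng, Pi.neg_apply, Matrix.neg_apply, pd_neg, mul_neg, ← neg_add,
        Finset.sum_neg_distrib, ← neg_sub']
    rw [t, s, pd_neg, ← neg_sub', k.momentum y hy j, neg_zero]

/-- Time reversal on the spaces of data. -/
def flip (h : kerr0 M b = ng (kerr0 M a)) (d : DD M a ρ) : DD M b ρ := ⟨ng d.1, isD_ng h d.2⟩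

theorem flip_cont (h : kerr0 M b = ng (kerr0 M a)) : Continuous (flip (ρ := ρ) h) := by
  refine continuous_generateFrom_iff.2 ?_
  rintro _ ⟨d, m, ε, rfl⟩
  refine TopologicalSpace.isOpen_generateFrom_of_mem
    ⟨flip (b := a) (by rw [h, ng_ng]) d, m, ε, ?_⟩
  ext d'
  change pn (kerr0 M b) ρ m (ng d'.1) d.1 < ε ↔ pn (kerr0 M a) ρ m d'.1 (ng d.1) < ε
  rw [h, ← pn_ng (kerr0 M a), ng_ng]

/-- Time reversal is a homeomorphism. -/
def flipH (M a : ℝ) (ρ : X → ℝ) : DD M a ρ ≃ₜ DD M (-a) ρ where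
  toFun := flip (kerr_neg M a)
  invFun := flip (by rw [kerr_neg, ng_ng])
  left_inv d := Subtype.ext (ng_ng _)
  right_inv d := Subtype.ext (ng_ng _)
  continuous_toFun := flip_cont _
  continuous_invFun := flip_cont _

theorem isWt_neg (h : IsWt M a ρ) : IsWt M (-a) ρ :=
  ⟨h.smooth, h.one_le, by simpa only [rad, neg_sq] using h.ends⟩

/-- Generic data are good in both directions of time. -/
theorem generic [BaireSpace (DD M a ρ)] {U : Set (DD M a ρ)} {V : Set (DD M (-a) ρ)}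
    (hU : IsOpen U) (hV : IsOpen V) (kU : ∃ d ∈ U, d.1 = kerr0 M a)
    (kV : ∃ d ∈ V, d.1 = kerr0 M (-a)) (mU : IsMeagre {d : U | ¬ Good d.1.1})
    (mV : IsMeagre {d : V | ¬ Good d.1.1}) : ∃ W : Set (DD M a ρ), IsOpen W ∧
      (∃ d ∈ W, d.1 = kerr0 M a) ∧ ∃ G : Set W, IsMeagre Gᶜ ∧ Dense G ∧
        ∀ d ∈ G, Good d.1.1 ∧ Good (ng d.1.1) := by
  have hW := hU.inter (hV.preimage (flipH M a ρ).continuous)
  have e1 : IsOpenEmbedding (inclusion (inter_subset_left (s := U) (t := flipH M a ρ ⁻¹' V))) :=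
    IsOpenEmbedding.inclusion _ (hW.preimage continuous_subtype_val)
  have e2 : IsOpenEmbedding fun d : ↥(U ∩ flipH M a ρ ⁻¹' V) => (⟨flipH M a ρ d, d.2.2⟩ : V) :=
    IsOpenEmbedding.of_comp _ hV.isOpenEmbedding_subtypeVal
      ((flipH M a ρ).isOpenEmbedding.comp hW.isOpenEmbedding_subtypeVal)
  have m : IsMeagre ({d : ↥(U ∩ flipH M a ρ ⁻¹' V) | Good d.1.1 ∧ Good (ng d.1.1)}ᶜ) :=
    ((mU.preimage_of_isOpenMap e1.continuous e1.isOpenMap).union
      (mV.preimage_of_isOpenMap e2.continuous e2.isOpenMap)).mono fun d hd => not_and_or.1 hd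
  have := hW.baireSpace
  obtain ⟨d, d1, d2⟩ := kU
  obtain ⟨d', d3, d4⟩ := kV
  refine ⟨_, hW, ⟨d, ⟨d1, ?_⟩, d2⟩, _, m, dense_of_mem_residual (by simpa [IsMeagre] using m),
    fun _ h => h⟩
  have : flipH M a ρ d = d' := Subtype.ext (by
    change ng d.1 = d'.1
    rw [d2, d4, kerr_neg])
  exact mem_preimage.2 (this ▸ d3)

end Vale.Agent.N354
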