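import Vale.Agent.N354.Ext

/-! P354 (helper87): a regular boundary point gives a future or a past extension. -/

open scoped ContDiff
open Set Filter Topology Metric

namespace Vale.Agent.N354

open Vale.Agent.P354n
open Vale.Agent.P354 (Bilin)

/-- Lorentzian forms. -/
def Sig (g : R4 → R4 → ℝ) : Prop :=
  ∃ L : R4 → R4, IsLinearMap ℝ L ∧ L.Injective ∧ ∀ a b, g a b = mink (L a) (L b)

theorem Sig.bilin {g : R4 → R4 → ℝ} (h : Sig g) : Bilin g := by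
  obtain ⟨L, l, -, k⟩ := h
  have m : Bilin mink := P354p.mink_bilin
  exact ⟨fun a b c => by rw [k, k, k, l.map_add, m.add_left],
    fun a b c => by rw [k, k, k, l.map_add, m.add_right],
    fun t a b => by rw [k, k, l.map_smul, m.smul_left],
    fun t a b => by rw [k, k, l.map_smul, m.smul_right]⟩

theorem neg_l {g : R4 → R4 → ℝ} (h : Bilin g) (a b : R4) : g (-a) b = -g a b := by
  simpa using h.smul_left (-1) a b

theorem neg_r {g : R4 → R4 → ℝ} (h : Bilin g) (a b : R4) : g a (-b) = -g a b := by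
  simpa using h.smul_right (-1) a b

theorem Sig.ne {g : R4 → R4 → ℝ} (h : Sig g) {a b : R4} (ha : g a a < 0) (hb : g b b < 0) :
    g a b ≠ 0 := by
  obtain ⟨L, -, -, k⟩ := h
  rw [k] at ha hb ⊢
  generalize L a = A at ha ⊢
  generalize L b = B at hb ⊢
  obtain ⟨a0, a1, a2, a3⟩ := A
  obtain ⟨b0, b1, b2, b3⟩ := B
  simp only [mink, cu, cv, c1, c2] at ha hb ⊢
  intro h0
  have h1 : (a1 * a1 + a2 * a2 + a3 * a3) * (b1 * b1 + b2 * b2 + b3 * b3) <
      (a0 * a0) * (b0 * b0) :=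
    mul_lt_mul'' (by linarith) (by linarith) (by nlinarith [mul_self_nonneg a1, mul_self_nonneg a2])
      (by nlinarith [mul_self_nonneg b1, mul_self_nonneg b2])
  have h2 : a0 * b0 = a1 * b1 + a2 * b2 + a3 * b3 := by linarith
  have h3 : (a0 * a0) * (b0 * b0) = (a1 * b1 + a2 * b2 + a3 * b3) ^ 2 := by rw [← h2]; ring
  nlinarith [sq_nonneg (a1 * b2 - a2 * b1), sq_nonneg (a1 * b3 - a3 * b1),
    sq_nonneg (a2 * b3 - a3 * b2)]

theorem Sig.tl {g : R4 → R4 → ℝ} (h : Sig g) : ∃ a, g a a < 0 := by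
  obtain ⟨L, l, i, k⟩ := h
  obtain ⟨a, ha⟩ := (LinearEquiv.ofInjectiveEndo (IsLinearMap.mk' L l) i).surjective (1, 0, 0, 0)
  replace ha : L a = (1, 0, 0, 0) := ha
  exact ⟨a, by rw [k, ha]; simp [mink, cu, cv, c1, c2]⟩

theorem cont_g {G : R4 → R4 → R4 → ℝ} {D : Set R4} (sig : ∀ y ∈ D, Sig (G y))
    (hc : ∀ a b, ContinuousOn (fun y => G y a b) D) {A : Type} [TopologicalSpace A] {O : Set A}
    {f u v : A → R4} (hf : ContinuousOn f O) (m : MapsTo f O D) (hu : ContinuousOn u O)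
    (hv : ContinuousOn v O) : ContinuousOn (fun p => G (f p) (u p) (v p)) O := by
  refine ContinuousOn.congr (f := fun p => ∑ i, ∑ j, P354p.crd i (u p) * P354p.crd j (v p) *
    G (f p) (P354p.bas i) (P354p.bas j)) ?_ fun p hp => P354p.bilin_expand (sig _ (m hp)).bilin _ _
  exact continuousOn_finsetSum _ fun i _ => continuousOn_finsetSum _ fun j _ =>
    (((P354p.crd i).continuous.comp_continuousOn hu).mul
      ((P354p.crd j).continuous.comp_continuousOn hv)).mul ((hc _ _).comp hf m)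

/-- A timelike segment which leaves the open set A near the boundary point y0. -/
theorem segment {G : R4 → R4 → R4 → ℝ} {D A : Set R4} (hD : IsOpen D) (hA : IsOpen A)
    (sig : ∀ y ∈ D, Sig (G y)) (hc : ∀ a b, ContinuousOn (fun y => G y a b) D) {y0 : R4}
    (h0 : y0 ∈ D) (h1 : y0 ∈ closure A) (h2 : y0 ∉ A) : ∃ B x w, IsOpen B ∧ B ⊆ D ∧
      (∀ y ∈ B, G y w w < 0) ∧ x + w ∈ B ∧ (∀ t ∈ Ico (0 : ℝ) 1, x + t • w ∈ A ∩ B) ∧
      x + w ∉ A := by
  obtain ⟨V, hV⟩ := (sig y0 h0).tl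
  have m : D ×ˢ univ ∈ 𝓝 (y0, V) := (hD.prod isOpen_univ).mem_nhds ⟨h0, trivial⟩
  have c := (cont_g sig hc (O := D ×ˢ univ) (f := Prod.fst) (u := Prod.snd) (v := Prod.snd)
    continuousOn_fst (fun _ h => h.1) continuousOn_snd continuousOn_snd).continuousAt m
  obtain ⟨δ, hδ, hb⟩ := Metric.eventually_nhds_iff_ball.1 ((c.eventually (gt_mem_nhds hV)).and m)
  have hin : ∀ y ∈ ball y0 δ, ∀ w ∈ ball V δ, G y w w < 0 ∧ y ∈ D := fun y hy w hw => by
    obtain ⟨k1, k2⟩ := hb (y, w) (by rw [← ball_prod_same]; exact ⟨hy, hw⟩)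
    exact ⟨k1, k2.1⟩
  have key : ∀ p ∈ A ∩ ball y0 δ, ∀ q ∈ ball y0 δ, q ∉ A → ∀ s : ℝ, s ≠ 0 → ∀ u ∈ ball V δ,
      q - p = s • u → ∃ B x w, IsOpen B ∧ B ⊆ D ∧ (∀ y ∈ B, G y w w < 0) ∧ x + w ∈ B ∧
      (∀ t ∈ Ico (0 : ℝ) 1, x + t • w ∈ A ∩ B) ∧ x + w ∉ A := by
    intro p hp q hq hq' s hs u hu e
    obtain ⟨τ, t0, t1, k1, k2⟩ := P354v.exit hA (γ := fun t : ℝ => p + t • (q - p)) (by fun_prop)
      (by simpa using hp.1) (by simpa using hq')
    have sg := fun t ht => (convex_ball y0 δ).add_smul_sub_mem hp.2 hq (t := t) ht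
    refine ⟨ball y0 δ, p, τ • (q - p), isOpen_ball, fun y hy => (hin y hy V (mem_ball_self hδ)).2,
      fun y hy => ?_, sg τ ⟨t0.le, t1⟩, fun t ht => ?_, (hA.frontier_eq ▸ k1).2⟩
    · obtain ⟨j1, j2⟩ := hin y hy u hu
      have b := (sig y j2).bilin
      rw [e, smul_smul, b.smul_left, b.smul_right, ← mul_assoc]
      exact mul_neg_of_pos_of_neg (mul_self_pos.2 (mul_ne_zero t0.ne' hs)) j1
    · have j : t * τ < τ := by nlinarith [ht.2]
      rw [smul_smul]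
      exact ⟨k2 _ (mul_nonneg ht.1 t0.le) j, sg _ ⟨mul_nonneg ht.1 t0.le, j.le.trans t1⟩⟩
  obtain ⟨ε, e0, e1⟩ : ∃ ε : ℝ, 0 < ε ∧ y0 + ε • V ∈ ball y0 δ := by
    have k : ContinuousAt (fun ε : ℝ => y0 + ε • V) 0 := by fun_prop
    exact ((k.eventually_mem (by simpa using ball_mem_nhds y0 hδ)).filter_mono
      (nhdsWithin_le_nhds (s := Ioi 0))).and self_mem_nhdsWithin |>.exists.imp
        fun ε h => ⟨h.2, h.1⟩
  by_cases k : y0 + ε • V ∈ A
  · exact key _ ⟨k, e1⟩ y0 (mem_ball_self hδ) h2 (-ε) (neg_ne_zero.2 e0.ne') V (mem_ball_self hδ)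
      (by simp)
  · have j : ContinuousAt (fun p : R4 => V + ε⁻¹ • (y0 - p)) y0 := by fun_prop
    obtain ⟨p, ⟨p1, p2⟩, p3⟩ := mem_closure_iff_nhds.1 h1 _ (inter_mem (ball_mem_nhds y0 hδ)
      (j.eventually_mem (by simpa using ball_mem_nhds V hδ)))
    refine key p ⟨p3, p1⟩ _ e1 k ε e0.ne' _ p2 ?_
    rw [smul_add, smul_smul, mul_inv_cancel₀ e0.ne', one_smul]
    abel

variable {M N : Spc} {Reg : (R4 → ℝ) → Set R4 → Prop}

theorem isom_rev (hN : IsSpacetime Reg N) {f : M.pt → N.pt} (h : IsIsom f) :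
    IsIsom (M := rev M) (N := rev N) f := fun e e' F hF y hy hy' => by
  obtain ⟨h1, h2, h3⟩ := h e e' F hF y hy hy'
  have b : Bilin (N.g e' (F y)) := hN.up.bilin e' (y := F y) (hF ▸ (N.toE e').map_source hy')
  refine ⟨h1, h2, ?_⟩
  change N.g e' (F y) (lineDeriv ℝ F y (-M.X e y)) (-N.X e' (F y)) < 0
  rwa [lineDeriv_neg, neg_l b, neg_r b, neg_neg]

theorem st_rev (h : IsSpacetime Reg M) : IsSpacetime Reg (rev M) :=
  ⟨isom_rev h h.tensor, h.signature, fun e y hy => by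
    have b : Bilin (M.g e y) := h.up.bilin e hy
    change M.g e y (-M.X e y) (-M.X e y) < 0
    rw [neg_l b, neg_r b, neg_neg]
    exact h.timelike e y hy, fun e => (h.continuous e).neg, h.regular⟩

theorem one_side (hM : IsSpacetime IsSmooth M) (ψ : OpenPartialHomeomorph M.pt R4)
    {B : Set R4} (hB : IsOpen B)
    (sep : ∀ x, ∀ z ∈ B, z ∉ ψ.target → ∃ W Q, IsOpen W ∧ IsOpen Q ∧ x ∈ W ∧
      z ∈ Q ∧ ∀ x' ∈ W, x' ∈ ψ.source → ψ x' ∉ Q) {G : R4 → R4 → R4 → ℝ} {w : R4}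
    (sig : ∀ y ∈ B, Sig (G y)) (tl : ∀ y ∈ B, G y w w < 0)
    (reg : ∀ a b, IsC0W1 2 (fun y => G y a b) B) {v : M.pt → R4} (hv : ContinuousOn v ψ.source)
    (vt : ∀ p ∈ ψ.source, ψ p ∈ B → G (ψ p) (v p) (v p) < 0)
    (iso : ∀ e F, F = (fun y => ψ (inv e y)) → ∀ y ∈ tgt e, inv e y ∈ ψ.source → F y ∈ B →
      ContDiffAt ℝ ∞ F y ∧
      (∀ a b, M.g e y a b = G (F y) (lineDeriv ℝ F y a) (lineDeriv ℝ F y b)) ∧
      lineDeriv ℝ F y (M.X e y) = v (inv e y))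
    {x : R4} (s1 : x + w ∈ B) (s2 : ∀ t ∈ Ico (0 : ℝ) 1, x + t • w ∈ ψ.target ∩ B)
    (s3 : x + w ∉ ψ.target)
    (s4 : ∀ t ∈ Ico (0 : ℝ) 1, G (x + t • w) (v (ψ.symm (x + t • w))) w < 0) :
    ∃ N ι c, IsFutureExtension (IsC0W1 2) M N ι c := by
  have oO := ψ.isOpen_inter_preimage hB
  have cσ : ContinuousOn (fun p => G (ψ p) (v p) w) (ψ.source ∩ ψ ⁻¹' B) :=
    cont_g sig (fun a b => (reg a b).1) (ψ.continuousOn.mono inter_subset_left) (fun _ h => h.2)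
      (hv.mono inter_subset_left) continuousOn_const
  have oP := cσ.isOpen_inter_preimage oO (isOpen_Iio (a := 0))
  have oM := cσ.isOpen_inter_preimage oO (isOpen_Ioi (a := 0))
  refine future_ext hM (ψ.restrOpen _ oP) hB (fun z hz => ?_) (fun p z hz hz' => ?_) sig tl reg
    (fun e F hF y hy hy' => ?_) s1 (fun t ht => ⟨(s2 t ht).1, ⟨ψ.map_target (s2 t ht).1, ?_⟩, ?_⟩)
    fun k => s3 k.1
  · exact ψ.right_inv hz.1 ▸ hz.2.1.2
  · by_cases k : z ∈ ψ.target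
    · by_cases j : p = ψ.symm z
      · have m : ψ p ∈ B := by rwa [j, ψ.right_inv k]
        have m' : p ∈ ψ.source := j ▸ ψ.map_target k
        refine ⟨_, univ, oM, isOpen_univ, ⟨⟨m', m⟩, ?_⟩, trivial, fun q h1 h2 _ =>
          lt_asymm (show G (ψ q) (v q) w < 0 from h2.2.2) h1.2⟩
        exact ((sig _ m).ne (vt p m' m) (tl _ m)).lt_or_gt.resolve_left
          fun i => hz' ⟨k, mem_preimage.2 (j ▸ ⟨⟨m', m⟩, i⟩)⟩
      · obtain ⟨W, W', a1, a2, a3, a4, a5⟩ := t2_separation j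
        refine ⟨W, _, a1, ψ.isOpen_inter_preimage_symm a2, a3, ⟨k, a4⟩, fun q h1 h2 h3 => ?_⟩
        exact disjoint_left.1 a5 h1 (ψ.left_inv h2.1 ▸ h3.2)
    · obtain ⟨W, Q, a1, a2, a3, a4, a5⟩ := sep p z hz k
      exact ⟨W, Q, a1, a2, a3, a4, fun q h1 h2 => a5 q h1 h2.1⟩
  · subst hF
    obtain ⟨a1, a2, a3⟩ := iso e _ rfl y hy hy'.1 hy'.2.1.2
    exact ⟨a1, a2, (congrArg (fun u => G (ψ (inv e y)) u w) a3).trans_lt hy'.2.2⟩
  · change ψ (ψ.symm _) ∈ B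
    rw [ψ.right_inv (s2 t ht).1]
    exact (s2 t ht).2
  · change G (ψ (ψ.symm _)) _ w < 0
    rw [ψ.right_inv (s2 t ht).1]
    exact s4 t ht

theorem two_sided (hM : IsSpacetime IsSmooth M) (ψ : OpenPartialHomeomorph M.pt R4)
    {D : Set R4} (hD : IsOpen D)
    (sep : ∀ x, ∀ z ∈ D, z ∉ ψ.target → ∃ W Q, IsOpen W ∧ IsOpen Q ∧ x ∈ W ∧
      z ∈ Q ∧ ∀ x' ∈ W, x' ∈ ψ.source → ψ x' ∉ Q) {G : R4 → R4 → R4 → ℝ}
    (sig : ∀ y ∈ D, Sig (G y)) (reg : ∀ a b, IsC0W1 2 (fun y => G y a b) D) {v : M.pt → R4}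
    (hv : ContinuousOn v ψ.source)
    (iso : ∀ e F, F = (fun y => ψ (inv e y)) → ∀ y ∈ tgt e, inv e y ∈ ψ.source → F y ∈ D →
      ContDiffAt ℝ ∞ F y ∧
      (∀ a b, M.g e y a b = G (F y) (lineDeriv ℝ F y a) (lineDeriv ℝ F y b)) ∧
      lineDeriv ℝ F y (M.X e y) = v (inv e y))
    {y0 : R4} (h0 : y0 ∈ D) (h1 : y0 ∈ closure ψ.target) (h2 : y0 ∉ ψ.target) :
    (∃ N ι c, IsFutureExtension (IsC0W1 2) M N ι c) ∨
      ∃ N ι c, IsFutureExtension (IsC0W1 2) (rev M) N ι c := by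
  obtain ⟨B, x, w, hB, sub, tl, s1, s2, s3⟩ :=
    segment hD ψ.open_target sig (fun a b => (reg a b).1) h0 h1 h2
  have vt : ∀ p ∈ ψ.source, ψ p ∈ B → G (ψ p) (v p) (v p) < 0 := fun p hp m => by
    obtain ⟨e, he⟩ := M.cover p
    have i : inv e (M.toE e p) = p := (M.toE e).left_inv he
    obtain ⟨-, a2, a3⟩ := iso e _ rfl _ ((M.toE e).map_source he) (by rwa [i])
      (by simpa only [i] using sub m)
    have k := hM.timelike e _ ((M.toE e).map_source he)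
    rwa [a2, a3, i] at k
  have c1 : ContinuousOn (fun t : ℝ => x + t • w) (Ico 0 1) := by fun_prop
  have c2 := ψ.continuousOn_symm.comp c1 fun t ht => (s2 t ht).1
  have c3 := cont_g sig (fun a b => (reg a b).1) c1 (fun t ht => sub (s2 t ht).2)
    (hv.comp c2 fun t ht => ψ.map_target (s2 t ht).1) (continuousOn_const (c := w))
  have sep' := fun p z hz => sep p z (sub hz)
  have sig' := fun y hy => sig y (sub hy)
  have reg' := fun a b => c0w1_sub sub (reg a b)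
  rcases isPreconnected_Ico.mapsTo_Ioi_or_Iio c3 (b := 0) fun t ht => (sig' _ (s2 t ht).2).ne (by
    have k := vt _ (ψ.map_target (s2 t ht).1)
    rw [ψ.right_inv (s2 t ht).1] at k
    exact k (s2 t ht).2) (tl _ (s2 t ht).2) with k | k
  · refine Or.inr (one_side (M := rev M) (st_rev hM) ψ hB sep' sig' tl reg' hv.neg
      (fun p hp m => ?_) (fun e F hF y hy hy' m => ?_) s1 s2 s3 fun t ht => ?_)
    · have b := (sig' _ m).bilin
      simpa only [Pi.neg_apply, neg_l b, neg_r b, neg_neg] using vt p hp m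
    · obtain ⟨a1, a2, a3⟩ := iso e F hF y hy hy' (sub m)
      exact ⟨a1, a2, lineDeriv_neg.trans (congrArg Neg.neg a3)⟩
    · exact (neg_l (sig' _ (s2 t ht).2).bilin _ _).trans_lt (neg_lt_zero.2 (k ht))
  · exact Or.inl (one_side hM ψ hB sep' sig' tl reg' hv vt
      (fun e F hF y hy hy' m => iso e F hF y hy hy' (sub m)) s1 s2 s3 fun t ht => k ht)

end Vale.Agent.N354
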